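import Mathlib

/-!
# Mod 2 chains of tuples, and fine symmetric chains `h_k` (module M1 of the discrete design, P052)

Chains are finitely supported functions `List V →₀ ZMod 2`; the complex is augmented:
`bdL [] = 0`, `bdL (a :: l) = l + a :: bdL l`.
-/

open Finsupp

namespace P052.H680

universe u v w

variable {V : Type u} {W : Type v} {X : Type w}

/-- mod 2 chains of tuples (lists) of points. -/
abbrev Ch (V : Type u) := List V →₀ ZMod 2

/-- the cone operator `l ↦ p :: l`. -/
noncomputable def cone (p : V) : Ch V →ₗ[ZMod 2] Ch V :=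
  Finsupp.lmapDomain (ZMod 2) (ZMod 2) (List.cons p)

/-- push forward of chains along a map. -/
noncomputable def mp (f : V → W) : Ch V →ₗ[ZMod 2] Ch W :=
  Finsupp.lmapDomain (ZMod 2) (ZMod 2) (List.map f)

/-- boundary of a tuple (augmented). -/
noncomputable def bdL : List V → Ch V
  | [] => 0
  | (a :: l) => single l 1 + cone a (bdL l)

/-- boundary of a chain. -/
noncomputable def bd : Ch V →ₗ[ZMod 2] Ch V := Finsupp.linearCombination (ZMod 2) bdL

@[simp] lemma cone_single (p : V) (l : List V) (c : ZMod 2) :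
    cone p (single l c) = single (p :: l) c := by
  simp [cone, Finsupp.mapDomain_single]

@[simp] lemma mp_single (f : V → W) (l : List V) (c : ZMod 2) :
    mp f (single l c) = single (l.map f) c := by
  simp [mp, Finsupp.mapDomain_single]

@[simp] lemma bd_single (l : List V) : bd (single l (1 : ZMod 2)) = bdL l := by
  simp [bd, Finsupp.linearCombination_single]

@[simp] lemma bdL_nil : bdL ([] : List V) = 0 := rfl

lemma bdL_cons (a : V) (l : List V) : bdL (a :: l) = single l 1 + cone a (bdL l) := rfl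

/-- extensionality for linear maps out of chains. -/
lemma lin_ext {M : Type*} [AddCommMonoid M] [Module (ZMod 2) M] {S T : Ch V →ₗ[ZMod 2] M}
    (h : ∀ l, S (single l 1) = T (single l 1)) : S = T :=
  Finsupp.lhom_ext' fun l => LinearMap.ext_ring (h l)

lemma bd_cone (p : V) (c : Ch V) : bd (cone p c) = c + cone p (bd c) := by
  have : (bd ∘ₗ cone p : Ch V →ₗ[ZMod 2] Ch V) = LinearMap.id + cone p ∘ₗ bd := by
    apply lin_ext
    intro l
    simp [bdL_cons]
  exact LinearMap.congr_fun this c

lemma mp_cone (f : V → W) (p : V) (c : Ch V) : mp f (cone p c) = cone (f p) (mp f c) := by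
  have : (mp f ∘ₗ cone p : Ch V →ₗ[ZMod 2] Ch W) = cone (f p) ∘ₗ mp f := by
    apply lin_ext
    intro l
    simp
  exact LinearMap.congr_fun this c

lemma mp_mp (g : W → X) (f : V → W) (c : Ch V) : mp g (mp f c) = mp (g ∘ f) c := by
  have : (mp g ∘ₗ mp f : Ch V →ₗ[ZMod 2] Ch X) = mp (g ∘ f) := by
    apply lin_ext
    intro l
    simp
  exact LinearMap.congr_fun this c

@[simp] lemma mp_id (c : Ch V) : mp (fun v => v) c = c := by
  have : (mp (fun v => v) : Ch V →ₗ[ZMod 2] Ch V) = LinearMap.id := by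
    apply lin_ext
    intro l
    simp
  exact LinearMap.congr_fun this c

lemma mp_bdL (f : V → W) (l : List V) : mp f (bdL l) = bdL (l.map f) := by
  induction l with
  | nil => simp
  | cons a l ih => simp [bdL_cons, mp_cone, ih]

lemma bd_mp (f : V → W) (c : Ch V) : bd (mp f c) = mp f (bd c) := by
  have : (bd ∘ₗ mp f : Ch V →ₗ[ZMod 2] Ch W) = mp f ∘ₗ bd := by
    apply lin_ext
    intro l
    simp [mp_bdL]
  exact LinearMap.congr_fun this c

lemma bd_bd (c : Ch V) : bd (bd c) = 0 := by
  have : (bd ∘ₗ bd : Ch V →ₗ[ZMod 2] Ch V) = 0 := by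
    apply lin_ext
    intro l
    induction l with
    | nil => simp
    | cons a l ih =>
      simp only [LinearMap.comp_apply, bd_single, LinearMap.zero_apply] at ih ⊢
      rw [bdL_cons, map_add, bd_single, bd_cone, ih, map_zero, add_zero]
      exact ZModModule.add_self _
  exact LinearMap.congr_fun this c

/-- the prism over a tuple, between the maps `f` and `g`. -/
noncomputable def prL (f g : V → W) : List V → Ch W
  | [] => 0
  | (a :: l) => single (f a :: g a :: l.map g) 1 + cone (f a) (prL f g l)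

/-- the prism operator. -/
noncomputable def pr (f g : V → W) : Ch V →ₗ[ZMod 2] Ch W :=
  Finsupp.linearCombination (ZMod 2) (prL f g)

@[simp] lemma pr_single (f g : V → W) (l : List V) :
    pr f g (single l (1 : ZMod 2)) = prL f g l := by
  simp [pr, Finsupp.linearCombination_single]

lemma prL_cons (f g : V → W) (a : V) (l : List V) :
    prL f g (a :: l) = single (f a :: g a :: l.map g) 1 + cone (f a) (prL f g l) := rfl

lemma pr_cone (f g : V → W) (a : V) (c : Ch V) :
    pr f g (cone a c) = cone (f a) (cone (g a) (mp g c)) + cone (f a) (pr f g c) := by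
  have : (pr f g ∘ₗ cone a : Ch V →ₗ[ZMod 2] Ch W) =
      cone (f a) ∘ₗ cone (g a) ∘ₗ mp g + cone (f a) ∘ₗ pr f g := by
    apply lin_ext
    intro l
    simp [prL_cons]
  exact LinearMap.congr_fun this c

lemma bd_prL (f g : V → W) (l : List V) :
    bd (prL f g l) = single (l.map g) 1 + single (l.map f) 1 + pr f g (bdL l) := by
  induction l with
  | nil =>
    simp only [prL, map_zero, List.map_nil, bdL_nil, add_zero]
    exact (ZModModule.add_self _).symm
  | cons a l ih =>
    have e1 : ∀ x : Ch W, x + x = 0 := fun x => ZModModule.add_self x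
    rw [prL_cons, map_add, bd_single, bdL_cons, bdL_cons, bdL_cons, map_add, bd_cone, ih,
      map_add (pr f g), pr_single, pr_cone, mp_bdL]
    simp only [map_add, cone_single, List.map_cons]
    have h1 := e1 (single (f a :: List.map g l) 1)
    have h2 := e1 (prL f g l)
    generalize prL f g l = A at *
    generalize cone (f a) (cone (g a) (bdL (List.map g l))) = B at *
    generalize (single (g a :: List.map g l) 1 : Ch W) = C at *
    generalize (single (f a :: List.map g l) 1 : Ch W) = D at *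
    generalize (single (f a :: List.map f l) 1 : Ch W) = E at *
    generalize cone (f a) ((pr f g) (bdL l)) = F at *
    have : C + (D + B) + (A + (D + E + F)) = C + E + (A + (B + F)) + (D + D) := by abel
    rw [this, h1, add_zero]

lemma bd_pr (f g : V → W) (c : Ch V) :
    bd (pr f g c) = mp g c + mp f c + pr f g (bd c) := by
  have : (bd ∘ₗ pr f g : Ch V →ₗ[ZMod 2] Ch W) = mp g + mp f + pr f g ∘ₗ bd := by
    apply lin_ext
    intro l
    simp [bd_prL]
  exact LinearMap.congr_fun this c

/-! ## Supports -/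

/-- chains all of whose tuples satisfy `P`. -/
def Sup (P : List V → Prop) : Submodule (ZMod 2) (Ch V) :=
  Finsupp.supported (ZMod 2) (ZMod 2) {l | P l}

lemma mem_Sup {P : List V → Prop} {c : Ch V} : c ∈ Sup P ↔ ∀ l ∈ c.support, P l := by
  simp [Sup, Finsupp.mem_supported, Set.subset_def]

lemma single_mem_Sup {P : List V → Prop} {l : List V} (h : P l) : single l 1 ∈ Sup P := by
  rw [mem_Sup]
  intro l' hl'
  have := Finsupp.support_single_subset hl'
  rw [Finset.mem_singleton] at this
  rw [this]; exact h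

lemma Sup_mono {P Q : List V → Prop} (h : ∀ l, P l → Q l) : Sup P ≤ Sup Q := by
  intro c hc
  rw [mem_Sup] at *
  exact fun l hl => h l (hc l hl)

lemma map_mem {M : Type*} [AddCommMonoid M] [Module (ZMod 2) M] (T : Ch V →ₗ[ZMod 2] M)
    (S : Submodule (ZMod 2) M) {P : List V → Prop} (h : ∀ l, P l → T (single l 1) ∈ S)
    {c : Ch V} (hc : c ∈ Sup P) : T c ∈ S := by
  rw [mem_Sup] at hc
  have : c = c.sum fun l a => a • single l (1 : ZMod 2) := by
    conv_lhs => rw [← Finsupp.sum_single c]
    apply Finsupp.sum_congr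
    intro l _
    simp
  rw [this, Finsupp.sum, map_sum]
  apply Submodule.sum_mem
  intro l hl
  rw [map_smul]
  exact S.smul_mem _ (h l (hc l hl))

lemma mp_mem {P : List V → Prop} {Q : List W → Prop} (f : V → W)
    (h : ∀ l, P l → Q (l.map f)) {c : Ch V} (hc : c ∈ Sup P) : mp f c ∈ Sup Q :=
  map_mem _ _ (fun l hl => by rw [mp_single]; exact single_mem_Sup (h l hl)) hc

lemma cone_mem {P Q : List V → Prop} (p : V)
    (h : ∀ l, P l → Q (p :: l)) {c : Ch V} (hc : c ∈ Sup P) : cone p c ∈ Sup Q :=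
  map_mem _ _ (fun l hl => by rw [cone_single]; exact single_mem_Sup (h l hl)) hc

lemma prL_mem (f g : V → W) (l : List V) :
    prL f g l ∈ Sup (fun l' : List W => l'.length = l.length + 1 ∧
      ∀ x ∈ l', ∃ v ∈ l, x = f v ∨ x = g v) := by
  induction l with
  | nil => exact Submodule.zero_mem _
  | cons a l ih =>
    rw [prL_cons]
    apply Submodule.add_mem
    · apply single_mem_Sup
      refine ⟨by simp, ?_⟩
      intro x hx
      simp only [List.mem_cons, List.mem_map] at hx
      rcases hx with rfl | rfl | ⟨y, hy, rfl⟩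
      · exact ⟨a, by simp, Or.inl rfl⟩
      · exact ⟨a, by simp, Or.inr rfl⟩
      · exact ⟨y, by simp [hy], Or.inr rfl⟩
    · refine cone_mem _ ?_ ih
      rintro l' ⟨h1, h2⟩
      refine ⟨by simp [h1], ?_⟩
      intro x hx
      rw [List.mem_cons] at hx
      rcases hx with rfl | hx
      · exact ⟨a, by simp, Or.inl rfl⟩
      · obtain ⟨v, hv, h⟩ := h2 x hx
        exact ⟨v, by simp [hv], h⟩

lemma pr_mem {P : List V → Prop} {Q : List W → Prop} (f g : V → W)
    (h : ∀ l l', P l → l'.length = l.length + 1 → (∀ x ∈ l', ∃ v ∈ l, x = f v ∨ x = g v) → Q l')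
    {c : Ch V} (hc : c ∈ Sup P) : pr f g c ∈ Sup Q :=
  map_mem _ _ (fun l hl => by
    rw [pr_single]
    exact Sup_mono (fun l' hl' => h l l' hl hl'.1 hl'.2) (prL_mem f g l)) hc

/-! ## The chains `h_k` in `Fin N → ℝ` -/

section cube

variable {N : ℕ}

/-- the move towards `p` by `i/m`. -/
noncomputable def mv (m : ℕ) (p : Fin N → ℝ) (i : ℕ) (v : Fin N → ℝ) : Fin N → ℝ :=
  (1 - (i : ℝ) / m) • v + ((i : ℝ) / m) • p

/-- filling of a cycle by a cone, subdivided in `m` prisms. -/
noncomputable def fill (m : ℕ) (p : Fin N → ℝ) (z : Ch (Fin N → ℝ)) : Ch (Fin N → ℝ) :=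
  (∑ i ∈ Finset.range m, pr (mv m p i) (mv m p (i + 1)) z) + cone p (mp (fun _ => p) z)

lemma bd_fill {m : ℕ} (hm : 0 < m) (p : Fin N → ℝ) {z : Ch (Fin N → ℝ)} (hz : bd z = 0) :
    bd (fill m p z) = z := by
  have hm' : (m : ℝ) ≠ 0 := by positivity
  have key : ∀ n : ℕ, bd (∑ i ∈ Finset.range n, pr (mv m p i) (mv m p (i + 1)) z) =
      mp (mv m p n) z + mp (mv m p 0) z := by
    intro n
    induction n with
    | zero => simp only [Finset.range_zero, Finset.sum_empty, map_zero]
              exact (ZModModule.add_self _).symm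
    | succ n ih =>
      rw [Finset.sum_range_succ, map_add, ih, bd_pr, hz, map_zero, add_zero]
      have := ZModModule.add_self (mp (mv m p n) z)
      generalize mp (mv m p n) z = A at *
      have e : A + mp (mv m p 0) z + (mp (mv m p (n+1)) z + A) =
        mp (mv m p (n+1)) z + mp (mv m p 0) z + (A + A) := by abel
      rw [e, this, add_zero]
  have h0 : mv m p 0 = fun v => v := by
    funext v; simp [mv]
  have h1 : mv m p m = fun _ => p := by
    funext v; simp [mv, div_self hm']
  rw [fill, map_add, key m, h0, h1, bd_cone, bd_mp, hz, map_zero, map_zero, add_zero, mp_id]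
  have := ZModModule.add_self (mp (fun _ => p) z)
  generalize mp (fun _ => p) z = A at *
  have e : A + z + A = z + (A + A) := by abel
  rw [e, this, add_zero]

/-- the basis point `e_k` (zero if `k ≥ N`). -/
noncomputable def ept (N k : ℕ) : Fin N → ℝ := fun i => if (i : ℕ) = k then 1 else 0

/-- the chains `h_k`. -/
noncomputable def hch (N m : ℕ) : ℕ → Ch (Fin N → ℝ)
  | 0 => single [ept N 0] 1
  | (k + 1) => fill m (ept N (k + 1)) (hch N m k + mp Neg.neg (hch N m k))

lemma hch_succ (N m k : ℕ) :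
    hch N m (k + 1) = fill m (ept N (k + 1)) (hch N m k + mp Neg.neg (hch N m k)) := rfl

lemma mp_neg_neg (c : Ch (Fin N → ℝ)) : mp Neg.neg (mp Neg.neg c) = c := by
  rw [mp_mp]
  have : (Neg.neg ∘ Neg.neg : (Fin N → ℝ) → (Fin N → ℝ)) = fun v => v := by
    funext v; simp
  rw [this, mp_id]

lemma bd_hch {m : ℕ} (hm : 0 < m) (k : ℕ) :
    bd (hch N m k + mp Neg.neg (hch N m k)) = 0 ∧
    bd (hch N m (k + 1)) = hch N m k + mp Neg.neg (hch N m k) := by
  induction k with
  | zero =>
    have h0 : bd (hch N m 0 + mp Neg.neg (hch N m 0)) = 0 := by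
      simp only [hch, mp_single, map_add, bd_single]
      simp only [List.map_cons, List.map_nil, bdL_cons, bdL_nil, map_zero, add_zero]
      exact ZModModule.add_self _
    exact ⟨h0, by rw [hch_succ, bd_fill hm _ h0]⟩
  | succ k ih =>
    have h0 : bd (hch N m (k+1) + mp Neg.neg (hch N m (k+1))) = 0 := by
      rw [map_add, bd_mp, ih.2, map_add, mp_neg_neg]
      have := ZModModule.add_self (hch N m k + mp Neg.neg (hch N m k))
      generalize hch N m k = A at *
      generalize mp Neg.neg A = B at *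
      rw [add_comm B A]; exact this
    exact ⟨h0, by rw [hch_succ N m (k+1), bd_fill hm _ h0]⟩

/-- admissible tuples at stage `k`: `k+1` points of the `l¹` sphere of the first `k+1` coordinates,
at mutual distance at most `2k/m`. -/
def Adm (N m k : ℕ) (l : List (Fin N → ℝ)) : Prop :=
  l.length = k + 1 ∧ (∀ v ∈ l, (∑ i, |v i| = 1) ∧ ∀ i : Fin N, k < (i : ℕ) → v i = 0) ∧
    ∀ v ∈ l, ∀ w ∈ l, ∀ i, |v i - w i| ≤ 2 * k / m

lemma abs_le_one_of_sum {v : Fin N → ℝ} (h : ∑ i, |v i| = 1) (i : Fin N) : |v i| ≤ 1 := by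
  rw [← h]
  exact Finset.single_le_sum (f := fun i => |v i|) (fun _ _ => abs_nonneg _) (Finset.mem_univ i)

lemma ept_sum {k : ℕ} (hk : k < N) : ∑ i, |ept N k i| = 1 := by
  have : ∀ i : Fin N, |ept N k i| = if i = ⟨k, hk⟩ then 1 else 0 := by
    intro i
    by_cases h : (i : ℕ) = k
    · have : i = ⟨k, hk⟩ := Fin.ext h
      simp [ept, this]
    · have : i ≠ ⟨k, hk⟩ := fun e => h (by rw [e])
      simp [ept, h, this]
  simp [this]

lemma mv_good {m : ℕ} (hm : 0 < m) {k : ℕ} (hk : k + 1 < N) {i : ℕ} (hi : i ≤ m)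
    {v : Fin N → ℝ} (hv : (∑ i, |v i| = 1) ∧ ∀ i : Fin N, k < (i : ℕ) → v i = 0) :
    (∑ j, |mv m (ept N (k + 1)) i v j| = 1) ∧
      ∀ j : Fin N, k + 1 < (j : ℕ) → mv m (ept N (k + 1)) i v j = 0 := by
  have hm' : (0 : ℝ) < m := by positivity
  have ht1 : (i : ℝ) / m ≤ 1 := by
    rw [div_le_one hm']; exact_mod_cast hi
  have ht0 : 0 ≤ (i : ℝ) / m := by positivity
  set t : ℝ := (i : ℝ) / m with ht
  constructor
  · have : ∀ j : Fin N, |mv m (ept N (k + 1)) i v j| =
        (1 - t) * |v j| + t * |ept N (k + 1) j| := by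
      intro j
      simp only [mv, Pi.add_apply, Pi.smul_apply, smul_eq_mul, ← ht]
      by_cases hj : (j : ℕ) = k + 1
      · have h0 : v j = 0 := hv.2 j (by omega)
        rw [h0]; simp [abs_mul, abs_of_nonneg ht0]
      · have h0 : ept N (k + 1) j = 0 := by simp [ept, hj]
        rw [h0]; simp [abs_mul, abs_of_nonneg (sub_nonneg.2 ht1)]
    simp_rw [this]
    rw [Finset.sum_add_distrib, ← Finset.mul_sum, ← Finset.mul_sum, hv.1, ept_sum hk]
    ring
  · intro j hj
    have h0 : v j = 0 := hv.2 j (by omega)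
    have h1 : ept N (k + 1) j = 0 := by
      have : (j : ℕ) ≠ k + 1 := by omega
      simp [ept, this]
    simp [mv, h0, h1]

lemma mv_close {m : ℕ} (hm : 0 < m) {k : ℕ} {p : Fin N → ℝ} (hp : ∀ i, |p i| ≤ 1)
    {i i' : ℕ} (hi : i ≤ m) (hi' : i' ≤ m) (hii : i = i' ∨ i + 1 = i' ∨ i' + 1 = i)
    {v w : Fin N → ℝ} (hw : ∀ i, |w i| ≤ 1) (hvw : ∀ i, |v i - w i| ≤ 2 * k / m) (j : Fin N) :
    |mv m p i v j - mv m p i' w j| ≤ 2 * ((k + 1 : ℕ) : ℝ) / m := by
  have hm' : (0 : ℝ) < m := by positivity
  have ht1 : (i : ℝ) / m ≤ 1 := by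
    rw [div_le_one hm']; exact_mod_cast hi
  have ht0 : 0 ≤ (i : ℝ) / m := by positivity
  have hd : |(i' : ℝ) / m - (i : ℝ) / m| ≤ 1 / m := by
    rw [← sub_div, abs_div, abs_of_pos hm']
    gcongr
    rcases hii with h | h | h
    · subst h; simp
    · subst h; push_cast; simp
    · subst h; push_cast
      rw [abs_le]; constructor <;> linarith
  have e : mv m p i v j - mv m p i' w j =
      (1 - (i : ℝ) / m) * (v j - w j) + ((i' : ℝ) / m - (i : ℝ) / m) * (w j - p j) := by
    simp only [mv, Pi.add_apply, Pi.smul_apply, smul_eq_mul]; ring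
  rw [e]
  have h1 : |(1 - (i : ℝ) / m) * (v j - w j)| ≤ 2 * k / m := by
    rw [abs_mul, abs_of_nonneg (sub_nonneg.2 ht1)]
    calc (1 - (i : ℝ) / m) * |v j - w j| ≤ 1 * |v j - w j| := by
          gcongr; linarith
      _ ≤ 2 * k / m := by rw [one_mul]; exact hvw j
  have h2 : |((i' : ℝ) / m - (i : ℝ) / m) * (w j - p j)| ≤ 1 / m * 2 := by
    rw [abs_mul]
    have : |w j - p j| ≤ 2 := by
      calc |w j - p j| ≤ |w j| + |p j| := abs_sub _ _
        _ ≤ 2 := by linarith [hw j, hp j]
    gcongr
  calc _ ≤ |(1 - (i : ℝ) / m) * (v j - w j)| + |((i' : ℝ) / m - (i : ℝ) / m) * (w j - p j)| :=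
        abs_add_le _ _
    _ ≤ 2 * k / m + 1 / m * 2 := add_le_add h1 h2
    _ = 2 * ((k + 1 : ℕ) : ℝ) / m := by push_cast; ring

lemma hch_mem {m : ℕ} (hm : 0 < m) {k : ℕ} (hk : k < N) : hch N m k ∈ Sup (Adm N m k) := by
  have hm' : (0 : ℝ) < m := by positivity
  induction k with
  | zero =>
    apply single_mem_Sup
    refine ⟨by simp, ?_, ?_⟩
    · intro v hv
      rw [List.mem_singleton] at hv
      subst hv
      refine ⟨ept_sum hk, fun i hi => ?_⟩
      have : (i : ℕ) ≠ 0 := by omega
      simp [ept, this]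
    · intro v hv w hw i
      rw [List.mem_singleton] at hv hw
      subst hv; subst hw; simp
  | succ k ih =>
    have ih := ih (by omega)
    have hz : hch N m k + mp Neg.neg (hch N m k) ∈ Sup (Adm N m k) := by
      apply Submodule.add_mem _ ih
      refine mp_mem _ ?_ ih
      rintro l ⟨h1, h2, h3⟩
      refine ⟨by simp [h1], ?_, ?_⟩
      · intro v hv
        rw [List.mem_map] at hv
        obtain ⟨v, hv, rfl⟩ := hv
        refine ⟨by simpa using (h2 v hv).1, fun i hi => by simpa using (h2 v hv).2 i hi⟩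
      · intro v hv w hw i
        rw [List.mem_map] at hv hw
        obtain ⟨v, hv, rfl⟩ := hv
        obtain ⟨w, hw, rfl⟩ := hw
        have := h3 v hv w hw i
        rw [Pi.neg_apply, Pi.neg_apply, ← abs_neg]
        convert this using 2; ring
    have hp1 : ∀ i, |ept N (k + 1) i| ≤ 1 := abs_le_one_of_sum (ept_sum hk)
    rw [hch_succ, fill]
    apply Submodule.add_mem
    · apply Submodule.sum_mem
      intro i hi
      rw [Finset.mem_range] at hi
      refine pr_mem _ _ ?_ hz
      rintro l l' ⟨h1, h2, h3⟩ hl' hx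
      refine ⟨by omega, ?_, ?_⟩
      · intro x hxl
        obtain ⟨v, hv, rfl | rfl⟩ := hx x hxl
        · exact mv_good hm hk hi.le (h2 v hv)
        · exact mv_good hm hk hi (h2 v hv)
      · intro x hxl y hyl j
        obtain ⟨v, hv, hxv⟩ := hx x hxl
        obtain ⟨w, hw, hyw⟩ := hx y hyl
        have hw1 : ∀ i, |w i| ≤ 1 := abs_le_one_of_sum (h2 w hw).1
        rcases hxv with rfl | rfl <;> rcases hyw with rfl | rfl
        · exact mv_close hm hp1 hi.le hi.le (Or.inl rfl) hw1 (h3 v hv w hw) j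
        · exact mv_close hm hp1 hi.le hi (Or.inr (Or.inl rfl)) hw1 (h3 v hv w hw) j
        · exact mv_close hm hp1 hi hi.le (Or.inr (Or.inr rfl)) hw1 (h3 v hv w hw) j
        · exact mv_close hm hp1 hi hi (Or.inl rfl) hw1 (h3 v hv w hw) j
    · have hc : mp (fun _ => ept N (k + 1)) (hch N m k + mp Neg.neg (hch N m k)) ∈
          Sup (fun l' : List (Fin N → ℝ) => l'.length = k + 1 ∧ ∀ x ∈ l', x = ept N (k + 1)) := by
        refine mp_mem _ ?_ hz
        rintro l ⟨h1, -, -⟩
        refine ⟨by simp [h1], ?_⟩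
        intro x hx
        rw [List.mem_map] at hx
        obtain ⟨v, -, rfl⟩ := hx
        rfl
      refine cone_mem _ ?_ hc
      rintro l ⟨h1, h2⟩
      have hall : ∀ x ∈ ept N (k + 1) :: l, x = ept N (k + 1) := by
        intro x hx
        rw [List.mem_cons] at hx
        rcases hx with rfl | hx
        · rfl
        · exact h2 x hx
      refine ⟨by simp [h1], ?_, ?_⟩
      · intro x hx
        rw [hall x hx]
        refine ⟨ept_sum hk, fun i hi => ?_⟩
        have : (i : ℕ) ≠ k + 1 := by omega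
        simp [ept, this]
      · intro x hx y hy j
        rw [hall x hx, hall y hy]
        simp only [sub_self, abs_zero]
        positivity

end cube

/-! ## The interface -/

/-- Fine symmetric chains in a finite dimensional normed space. -/
theorem exists_chains {E : Type*} [NormedAddCommGroup E] [NormedSpace ℝ E] {N : ℕ}
    (b : Module.Basis (Fin N) ℝ E) {δ : ℝ} (hδ : 0 < δ) (hN : 0 < N) :
    ∃ h : ℕ → Ch E, bd (h 0) = single [] 1 ∧
      (∀ k, bd (h (k + 1)) = h k + mp Neg.neg (h k)) ∧
      ∀ k, k < N → ∀ l ∈ (h k).support, l.length = k + 1 ∧ (∀ v ∈ l, ∑ i, |b.repr v i| = 1) ∧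
        ∀ v ∈ l, ∀ w ∈ l, ‖v - w‖ < δ := by
  have : FiniteDimensional ℝ E := Module.Basis.finiteDimensional_of_finite b
  let L : (Fin N → ℝ) →L[ℝ] E := LinearMap.toContinuousLinearMap (b.equivFun.symm : (Fin N → ℝ) →ₗ[ℝ] E)
  have hL : ∀ v, L v = b.equivFun.symm v := fun v => rfl
  obtain ⟨m, hm⟩ := exists_nat_gt (‖L‖ * (2 * N) / δ)
  have hm0 : (0 : ℝ) < m := lt_of_le_of_lt (by positivity) hm
  have hmp : 0 < m := by exact_mod_cast hm0
  refine ⟨fun k => mp L (hch N m k), ?_, ?_, ?_⟩
  · simp only [hch, mp_single, bd_single, List.map_cons, List.map_nil, bdL_cons, bdL_nil, map_zero,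
      add_zero]
  · intro k
    rw [bd_mp, (bd_hch hmp k).2, map_add, mp_mp, mp_mp]
    congr 2
    apply congrArg
    funext v
    simp
  · intro k hk l hl
    have hmem : mp L (hch N m k) ∈ Sup (fun l : List E => l.length = k + 1 ∧
        (∀ v ∈ l, ∑ i, |b.repr v i| = 1) ∧ ∀ v ∈ l, ∀ w ∈ l, ‖v - w‖ < δ) := by
      refine mp_mem _ ?_ (hch_mem hmp hk)
      rintro l ⟨h1, h2, h3⟩
      refine ⟨by simp [h1], ?_, ?_⟩
      · intro v hv
        rw [List.mem_map] at hv
        obtain ⟨v, hv, rfl⟩ := hv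
        have := (h2 v hv).1
        rw [hL]
        have e : ∀ i, b.repr (b.equivFun.symm v) i = v i := by
          intro i
          rw [← b.equivFun_apply, LinearEquiv.apply_symm_apply]
        simp_rw [e]
        exact this
      · intro v hv w hw
        rw [List.mem_map] at hv hw
        obtain ⟨v, hv, rfl⟩ := hv
        obtain ⟨w, hw, rfl⟩ := hw
        have hd : ‖v - w‖ ≤ 2 * k / m := by
          rw [pi_norm_le_iff_of_nonneg (by positivity)]
          intro i
          exact h3 v hv w hw i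
        have hkN : (k : ℝ) ≤ N := by exact_mod_cast hk.le
        calc ‖L v - L w‖ = ‖L (v - w)‖ := by rw [map_sub]
          _ ≤ ‖L‖ * ‖v - w‖ := L.le_opNorm _
          _ ≤ ‖L‖ * (2 * k / m) := by gcongr
          _ ≤ ‖L‖ * (2 * N / m) := by gcongr
          _ = ‖L‖ * (2 * N) / m := by ring
          _ < δ := by
            rw [div_lt_iff₀ hm0]
            rw [div_lt_iff₀ hδ] at hm
            linarith
    exact mem_Sup.1 hmem l hl

end P052.H680
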