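import Vale.Agent.P052.R2.H680.Chains

/-!
# Fan's lemma for mod 2 chains of tuples (module M2 of the discrete design, P052)

Labels are pairs `(colour, sign) : ℕ × Bool`.  `al n s L` is `1` if the labels of `L` (colours `< n`)
can be ordered with strictly increasing colours and alternating signs starting with `s`, and `0`
otherwise.  It is computed by a product of `2 × 2` transfer matrices.
-/

open Finsupp

namespace P052.H680

/-- evaluation of a cochain on chains. -/
noncomputable def ev {V M : Type*} [AddCommMonoid M] [Module (ZMod 2) M] (φ : List V → M) :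
    Ch V →ₗ[ZMod 2] M := Finsupp.linearCombination (ZMod 2) φ

@[simp] lemma ev_single {V M : Type*} [AddCommMonoid M] [Module (ZMod 2) M] (φ : List V → M)
    (l : List V) : ev φ (single l (1 : ZMod 2)) = φ l := by
  simp [ev, Finsupp.linearCombination_single]

lemma ev_cone {V M : Type*} [AddCommMonoid M] [Module (ZMod 2) M] (φ : List V → M) (a : V)
    (c : Ch V) : ev φ (cone a c) = ev (fun l => φ (a :: l)) c := by
  have : (ev φ ∘ₗ cone a : Ch V →ₗ[ZMod 2] M) = ev (fun l => φ (a :: l)) := by
    apply lin_ext
    intro l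
    simp
  exact LinearMap.congr_fun this c

lemma ev_mp {V W M : Type*} [AddCommMonoid M] [Module (ZMod 2) M] (φ : List W → M) (f : V → W)
    (c : Ch V) : ev φ (mp f c) = ev (fun l => φ (l.map f)) c := by
  have : (ev φ ∘ₗ mp f : Ch V →ₗ[ZMod 2] M) = ev (fun l => φ (l.map f)) := by
    apply lin_ext
    intro l
    simp
  exact LinearMap.congr_fun this c

lemma ev_congr {V M : Type*} [AddCommMonoid M] [Module (ZMod 2) M] {φ ψ : List V → M}
    {c : Ch V} (h : ∀ l ∈ c.support, φ l = ψ l) : ev φ c = ev ψ c := by
  simp only [ev, Finsupp.linearCombination_apply]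
  exact Finsupp.sum_congr fun l hl => by rw [h l hl]

lemma ev_add {V M : Type*} [AddCommMonoid M] [Module (ZMod 2) M] (φ ψ : List V → M)
    (c : Ch V) : ev (fun l => φ l + ψ l) c = ev φ c + ev ψ c := by
  have : (ev (fun l => φ l + ψ l) : Ch V →ₗ[ZMod 2] M) = ev φ + ev ψ := by
    apply lin_ext
    intro l
    simp
  exact LinearMap.congr_fun this c

/-- labels. -/
abbrev Lab := ℕ × Bool

/-- transfer matrix of a colour with `a` plus labels and `b` minus labels. -/
def TM : ℕ → ℕ → Matrix Bool Bool (ZMod 2)
  | 0, 0 => 1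
  | 1, 0 => Matrix.of fun s t => if s = true ∧ t = false then 1 else 0
  | 0, 1 => Matrix.of fun s t => if s = false ∧ t = true then 1 else 0
  | _, _ => 0

/-- the all ones matrix. -/
def JM : Matrix Bool Bool (ZMod 2) := Matrix.of fun _ _ => 1

lemma TM_two_left (a b : ℕ) : TM (a + 2) b = 0 := by
  rcases b with _ | _ | b <;> rfl

lemma TM_two_right (a b : ℕ) : TM a (b + 2) = 0 := by
  rcases a with _ | _ | a <;> rfl

lemma TM_one_one : TM 1 1 = 0 := rfl

lemma deriv_TM (a b : ℕ) (h : a * b = 0) :
    (a : ZMod 2) • TM (a - 1) b + (b : ZMod 2) • TM a (b - 1) = JM * TM a b + TM a b * JM := by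
  have two : (2 : ZMod 2) = 0 := rfl
  have e00 : (0 : Matrix Bool Bool (ZMod 2)) = JM * TM 0 0 + TM 0 0 * JM := by decide
  have e10 : TM 0 0 = JM * TM 1 0 + TM 1 0 * JM := by decide
  have e01 : TM 0 0 = JM * TM 0 1 + TM 0 1 * JM := by decide
  rcases Nat.mul_eq_zero.1 h with rfl | rfl
  · rcases b with _ | _ | b
    · simpa using e00
    · simpa using e01
    · rw [TM_two_right]
      rcases b with _ | b
      · simp [two]
      · have : TM 0 (b + 1 + 1) = 0 := TM_two_right 0 b
        simp [this]
  · rcases a with _ | _ | a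
    · simpa using e00
    · simpa using e10
    · rw [TM_two_left]
      rcases a with _ | a
      · simp [two]
      · have : TM (a + 1 + 1) 0 = 0 := TM_two_left a 0
        simp [this]

/-- product of the transfer matrices of the colours `< n`. -/
def PM : ℕ → (Lab → ℕ) → Matrix Bool Bool (ZMod 2)
  | 0, _ => 1
  | (n + 1), c => PM n c * TM (c (n, true)) (c (n, false))

/-- remove one label. -/
def rm (c : Lab → ℕ) (a : Lab) : Lab → ℕ := fun b => if b = a then c b - 1 else c b

lemma PM_congr {n : ℕ} {c d : Lab → ℕ} (h : ∀ i < n, ∀ s, c (i, s) = d (i, s)) :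
    PM n c = PM n d := by
  induction n with
  | zero => rfl
  | succ n ih =>
    rw [PM, PM, ih fun i hi s => h i (by omega) s, h n (by omega), h n (by omega)]

lemma deriv_PM (n : ℕ) (c : Lab → ℕ) (h : ∀ i < n, c (i, true) * c (i, false) = 0) :
    ∑ i ∈ Finset.range n, ∑ s : Bool, (c (i, s) : ZMod 2) • PM n (rm c (i, s)) =
      JM * PM n c + PM n c * JM := by
  induction n with
  | zero =>
    simp only [Finset.range_zero, Finset.sum_empty, PM]
    decide
  | succ n ih =>
    rw [Finset.sum_range_succ]
    have h1 : ∀ i ∈ Finset.range n, ∑ s : Bool, (c (i, s) : ZMod 2) • PM (n + 1) (rm c (i, s)) =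
        (∑ s : Bool, (c (i, s) : ZMod 2) • PM n (rm c (i, s))) *
          TM (c (n, true)) (c (n, false)) := by
      intro i hi
      rw [Finset.mem_range] at hi
      rw [Finset.sum_mul]
      refine Finset.sum_congr rfl fun s _ => ?_
      have e : ∀ t, rm c (i, s) (n, t) = c (n, t) := by
        intro t
        have : ((n, t) : Lab) ≠ (i, s) := by
          intro h; rw [Prod.mk.injEq] at h; omega
        simp [rm, this]
      rw [PM, e, e, smul_mul_assoc]
    rw [Finset.sum_congr rfl h1, ← Finset.sum_mul, ih fun i hi => h i (by omega)]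
    have h2 : ∑ s : Bool, (c (n, s) : ZMod 2) • PM (n + 1) (rm c (n, s)) =
        PM n c * ((c (n, true) : ZMod 2) • TM (c (n, true) - 1) (c (n, false)) +
          (c (n, false) : ZMod 2) • TM (c (n, true)) (c (n, false) - 1)) := by
      rw [Fintype.sum_bool, mul_add]
      have e : ∀ s, PM n (rm c (n, s)) = PM n c := by
        intro s
        apply PM_congr
        intro i hi t
        have : ((i, t) : Lab) ≠ (n, s) := by
          intro h; rw [Prod.mk.injEq] at h; omega
        simp [rm, this]
      have e1 : rm c (n, true) (n, true) = c (n, true) - 1 := by simp [rm]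
      have e2 : rm c (n, true) (n, false) = c (n, false) := by simp [rm]
      have e3 : rm c (n, false) (n, true) = c (n, true) := by simp [rm]
      have e4 : rm c (n, false) (n, false) = c (n, false) - 1 := by simp [rm]
      rw [PM, PM, e, e, e1, e2, e3, e4, mul_smul_comm, mul_smul_comm]
    rw [h2, deriv_TM _ _ (h n (by omega)), PM]
    have two := ZModModule.add_self (PM n c * JM * TM (c (n, true)) (c (n, false)))
    simp only [add_mul, mul_add, mul_assoc] at two ⊢
    generalize PM n c * (JM * TM (c (n, true)) (c (n, false))) = A at *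
    have : ∀ x y : Matrix Bool Bool (ZMod 2), x + A + (A + y) = x + y + (A + A) := by
      intro x y; abel
    rw [this, two, add_zero]

/-- counting function of a list of labels. -/
def cnt (L : List Lab) : Lab → ℕ := fun a => L.count a

/-- one label. -/
def one (a : Lab) : Lab → ℕ := fun b => if b = a then 1 else 0

lemma cnt_cons (a : Lab) (L : List Lab) : cnt (a :: L) = cnt L + one a := by
  funext b
  simp only [cnt, one, Pi.add_apply, List.count_cons]
  by_cases h : b = a
  · subst h; simp
  · have : (a == b) = false := by simpa using fun e => h e.symm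
    simp [h, this]

lemma rm_add_one (c : Lab → ℕ) (a : Lab) : rm (c + one a) a = c := by
  funext b
  by_cases h : b = a
  · subst h; simp [rm, one]
  · simp [rm, one, h]

lemma ev_bdL {M : Type*} [AddCommMonoid M] [Module (ZMod 2) M] (F : (Lab → ℕ) → M) (n : ℕ)
    (L : List Lab) (hL : ∀ a ∈ L, a.1 < n) (c : Lab → ℕ) :
    ev (fun L => F (c + cnt L)) (bdL L) =
      ∑ i ∈ Finset.range n, ∑ s : Bool, (cnt L (i, s) : ZMod 2) • F (rm (c + cnt L) (i, s)) := by
  induction L generalizing c with
  | nil => simp [cnt]
  | cons a L ih =>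
    have ih := ih (fun b hb => hL b (List.mem_cons_of_mem _ hb)) (c + one a)
    rw [bdL_cons, map_add, ev_single, ev_cone]
    have e1 : (fun l => F (c + cnt (a :: l))) = fun L => F (c + one a + cnt L) := by
      funext l
      rw [cnt_cons]; congr 1; abel
    rw [e1, ih]
    have e2 : c + cnt (a :: L) = c + one a + cnt L := by rw [cnt_cons]; abel
    rw [e2]
    have e3 : ∀ i ∈ Finset.range n, ∑ s : Bool, (cnt (a :: L) (i, s) : ZMod 2) •
        F (rm (c + one a + cnt L) (i, s)) =
        (∑ s : Bool, (one a (i, s) : ZMod 2) • F (rm (c + one a + cnt L) (i, s))) +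
        ∑ s : Bool, (cnt L (i, s) : ZMod 2) • F (rm (c + one a + cnt L) (i, s)) := by
      intro i _
      rw [← Finset.sum_add_distrib]
      refine Finset.sum_congr rfl fun s _ => ?_
      rw [cnt_cons, Pi.add_apply, Nat.cast_add, add_smul, add_comm]
    rw [Finset.sum_congr rfl e3, Finset.sum_add_distrib]
    congr 1
    have ha : a.1 < n := hL a (by simp)
    rw [Finset.sum_eq_single_of_mem a.1 (Finset.mem_range.2 ha),
      Finset.sum_eq_single_of_mem a.2 (Finset.mem_univ _)]
    · have e4 : c + one a + cnt L = c + cnt L + one a := by abel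
      rw [e4]
      have e5 : ((a.1, a.2) : Lab) = a := rfl
      rw [e5, rm_add_one]
      simp [one]
    · intro s _ hs
      have : ((a.1, s) : Lab) ≠ a := by
        intro h; exact hs (by rw [← h])
      simp [one, this]
    · intro i _ hi
      apply Finset.sum_eq_zero
      intro s _
      have : ((i, s) : Lab) ≠ a := by
        intro h; exact hi (by rw [← h])
      simp [one, this]

/-- no complementary pair of labels. -/
def NC (L : List Lab) : Prop := ∀ i, ¬ ((i, true) ∈ L ∧ (i, false) ∈ L)

/-- the alternating cochain. -/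
def al (n : ℕ) (s : Bool) (L : List Lab) : ZMod 2 := ∑ t : Bool, PM n (cnt L) s t

lemma al_bdL (n : ℕ) (s : Bool) (L : List Lab) (hL : ∀ a ∈ L, a.1 < n) (hc : NC L) :
    ev (al n s) (bdL L) = al n true L + al n false L := by
  have h0 : ∀ i < n, cnt L (i, true) * cnt L (i, false) = 0 := by
    intro i _
    by_contra h
    have h1 : cnt L (i, true) ≠ 0 := fun e => h (by rw [e, zero_mul])
    have h2 : cnt L (i, false) ≠ 0 := fun e => h (by rw [e, mul_zero])
    exact hc i ⟨List.count_pos_iff.1 (Nat.pos_of_ne_zero h1),
      List.count_pos_iff.1 (Nat.pos_of_ne_zero h2)⟩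
  have key : ev (fun L => PM n (0 + cnt L)) (bdL L) = JM * PM n (cnt L) + PM n (cnt L) * JM := by
    rw [ev_bdL (PM n) n L hL 0, zero_add]
    exact deriv_PM n (cnt L) h0
  -- apply the linear functional `A ↦ ∑ t, A s t`
  let R : Matrix Bool Bool (ZMod 2) →ₗ[ZMod 2] ZMod 2 :=
    { toFun := fun A => ∑ t, A s t
      map_add' := fun A B => by simp [Finset.sum_add_distrib]
      map_smul' := fun r A => by simp [mul_add] }
  have h1 : ev (al n s) (bdL L) = R (ev (fun L => PM n (0 + cnt L)) (bdL L)) := by
    have : (ev (al n s) : Ch Lab →ₗ[ZMod 2] ZMod 2) =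
        R ∘ₗ (ev (fun L => PM n (0 + cnt L)) : Ch Lab →ₗ[ZMod 2] _) := by
      apply lin_ext
      intro l
      simp [al, R]
    rw [this]; rfl
  rw [h1, key]
  have : ∀ A : Matrix Bool Bool (ZMod 2), R (JM * A + A * JM) =
      (∑ t, A true t) + ∑ t, A false t := by
    intro A
    simp only [R, JM, LinearMap.coe_mk, AddHom.coe_mk, Matrix.add_apply, Matrix.mul_apply,
      Matrix.of_apply, Fintype.sum_bool, one_mul, mul_one]
    generalize A true true = a
    generalize A true false = b
    generalize A false true = c
    generalize A false false = d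
    generalize A s true = e
    generalize A s false = f
    revert a b c d e f
    decide
  rw [this]
  rfl

/-- flip the sign of a label. -/
def fl (a : Lab) : Lab := (a.1, !a.2)

lemma fl_fl (a : Lab) : fl (fl a) = a := by simp [fl]

lemma fl_inj : Function.Injective fl := fun a b h => by rw [← fl_fl a, h, fl_fl]

lemma cnt_map_fl (L : List Lab) (i : ℕ) (s : Bool) : cnt (L.map fl) (i, s) = cnt L (i, !s) := by
  have : ((i, s) : Lab) = fl (i, !s) := by simp [fl]
  simp only [cnt]
  rw [this, List.count_map_of_injective _ _ fl_inj]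

lemma TM_swap (a b : ℕ) (s t : Bool) : TM b a s t = TM a b (!s) (!t) := by
  rcases a with _ | _ | a <;> rcases b with _ | _ | b
  · cases s <;> cases t <;> rfl
  · cases s <;> cases t <;> rfl
  · rw [TM_two_right, TM_two_left]; rfl
  · cases s <;> cases t <;> rfl
  · cases s <;> cases t <;> rfl
  · rw [TM_two_right, TM_two_left]; rfl
  · rw [TM_two_right, TM_two_left]; rfl
  · rw [TM_two_right, TM_two_left]; rfl
  · rw [TM_two_right, TM_two_left]; rfl

lemma PM_fl (n : ℕ) (L : List Lab) (s t : Bool) :
    PM n (cnt (L.map fl)) s t = PM n (cnt L) (!s) (!t) := by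
  induction n generalizing s t with
  | zero => cases s <;> cases t <;> rfl
  | succ n ih =>
    simp only [PM, Matrix.mul_apply]
    rw [Fintype.sum_bool, Fintype.sum_bool, ih, ih, cnt_map_fl, cnt_map_fl]
    simp only [Bool.not_true, Bool.not_false]
    rw [TM_swap (cnt L (n, true)) (cnt L (n, false)), TM_swap (cnt L (n, true)) (cnt L (n, false))]
    simp only [Bool.not_true, Bool.not_false]
    ring

lemma al_fl (n : ℕ) (s : Bool) (L : List Lab) : al n s (L.map fl) = al n (!s) L := by
  simp only [al, PM_fl]
  rw [Fintype.sum_bool, Fintype.sum_bool]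
  simp only [Bool.not_true, Bool.not_false]
  ring

lemma PM_nil (n : ℕ) : PM n (cnt []) = 1 := by
  induction n with
  | zero => rfl
  | succ n ih => rw [PM, ih]; simp [cnt, TM]

lemma al_nil (n : ℕ) (s : Bool) : al n s [] = 1 := by
  simp only [al, PM_nil]
  revert s; decide

/-! ## Fan's theorem for chains -/

section fan

variable {V : Type*}

/-- Fan's theorem: if `h_k` are symmetric hemisphere chains and `ℓ` is an odd labelling with no
complementary pair inside a tuple, then the number of alternating tuples in the sphere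
`h_k + τ h_k`, is odd. -/
theorem fan (τ : V → V) (ℓ : V → Lab) (hℓ : ∀ v, ℓ (τ v) = fl (ℓ v)) (n : ℕ)
    (hn : ∀ v, (ℓ v).1 < n) (h : ℕ → Ch V) (h0 : bd (h 0) = single [] 1)
    (hs : ∀ k, bd (h (k + 1)) = h k + mp τ (h k)) (N : ℕ)
    (hc : ∀ k < N, ∀ l ∈ (h k).support, NC (l.map ℓ)) (s : Bool) (k : ℕ) (hk : k < N) :
    ev (fun l => al n s (l.map ℓ)) (h k + mp τ (h k)) = 1 := by
  have key : ∀ k < N, ∀ s, ev (fun l => al n s (l.map ℓ)) (bd (h k)) =
      ev (fun l => al n s (l.map ℓ)) (h k + mp τ (h k)) := by
    intro k hk s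
    have e1 : ev (fun l => al n s (l.map ℓ)) (bd (h k)) =
        ev (fun l => al n true (l.map ℓ) + al n false (l.map ℓ)) (h k) := by
      have : ∀ l ∈ (h k).support, ev (fun l => al n s (l.map ℓ)) (bdL l) =
          al n true (l.map ℓ) + al n false (l.map ℓ) := by
        intro l hl
        rw [← al_bdL n s (l.map ℓ) _ (hc k hk l hl), ← mp_bdL, ev_mp]
        intro a ha
        rw [List.mem_map] at ha
        obtain ⟨v, _, rfl⟩ := ha
        exact hn v
      have e2 : ev (fun l => al n s (l.map ℓ)) (bd (h k)) =
          ev (fun l => ev (fun l => al n s (l.map ℓ)) (bdL l)) (h k) := by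
        have : (ev (fun l => al n s (l.map ℓ)) ∘ₗ bd : Ch V →ₗ[ZMod 2] ZMod 2) =
            ev (fun l => ev (fun l => al n s (l.map ℓ)) (bdL l)) := by
          apply lin_ext
          intro l
          simp
        exact LinearMap.congr_fun this (h k)
      rw [e2]
      exact ev_congr this
    rw [e1, map_add, ev_mp]
    have e3 : (fun l : List V => al n s ((l.map τ).map ℓ)) = fun l => al n (!s) (l.map ℓ) := by
      funext l
      rw [← al_fl, List.map_map, List.map_map]
      congr 2
      funext v
      exact hℓ v
    rw [e3, ev_add]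
    cases s
    · simp only [Bool.not_false]; ring
    · simp only [Bool.not_true]
  rw [← key k hk]
  induction k generalizing s with
  | zero => rw [h0, ev_single, List.map_nil, al_nil]
  | succ k ih => rw [hs k, ← key k (by omega)]; exact ih s (by omega)

end fan

end P052.H680
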