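import Vale.Agent.P052.R2.H680.Fan

/-!
# Meaning of the alternating cochain (P052)
-/

open Finsupp

namespace P052.H680

/-- `Dn s t L`: the colours of `L` strictly decrease and, read from the last entry to the first, the
signs are `s, !s, s, ...`, and `t` is the next sign expected. -/
def Dn (s : Bool) : Bool → List Lab → Prop
  | t, [] => s = t
  | t, (a :: l) => t = !a.2 ∧ Dn s a.2 l ∧ ∀ b ∈ l, b.1 < a.1

/-- `Up s L`: the colours of `L` strictly increase and the signs are `s, !s, s, ...`. -/
def Up : Bool → List Lab → Prop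
  | _, [] => True
  | s, (a :: l) => a.2 = s ∧ Up (!s) l ∧ ∀ b ∈ l, a.1 < b.1

lemma cnt_perm {L L' : List Lab} (h : L.Perm L') : cnt L = cnt L' := by
  funext a; exact h.count_eq a

lemma PM_spec (n : ℕ) (s t : Bool) (L : List Lab) (hL : ∀ a ∈ L, a.1 < n) :
    (PM n (cnt L) s t = 1 ∧ ∃ L', L.Perm L' ∧ Dn s t L') ∨
      (PM n (cnt L) s t = 0 ∧ ¬ ∃ L', L.Perm L' ∧ Dn s t L') := by
  induction n generalizing s t L with
  | zero =>
    have : L = [] := by
      rw [List.eq_nil_iff_forall_not_mem]
      intro a ha; exact absurd (hL a ha) (by omega)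
    subst this
    by_cases h : s = t
    · left
      subst h
      refine ⟨by simp [PM], [], List.Perm.refl _, rfl⟩
    · right
      refine ⟨by simp [PM, h], ?_⟩
      rintro ⟨L', h1, h2⟩
      have := h1.symm.eq_nil
      subst this
      exact h h2
  | succ n ih =>
    -- if `(n, e) ∈ L` then an arrangement starts with `(n, e)`
    have head : ∀ e, (n, e) ∈ L → ∀ L', L.Perm L' → Dn s t L' →
        ∃ L1, L' = (n, e) :: L1 ∧ ∀ b ∈ L1, b.1 < n := by
      intro e he L' hp hd
      have he' : (n, e) ∈ L' := hp.mem_iff.1 he
      cases L' with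
      | nil => simp at he'
      | cons a l =>
        rcases List.mem_cons.1 he' with h | h
        · subst h; exact ⟨l, rfl, hd.2.2⟩
        · have h1 := hd.2.2 _ h
          have h2 := hL a (hp.mem_iff.2 (by simp))
          simp at h1; omega
    have c2 : ∀ e, 2 ≤ cnt L (n, e) → ¬ ∃ L', L.Perm L' ∧ Dn s t L' := by
      rintro e he ⟨L', hp, hd⟩
      have hmem : (n, e) ∈ L := List.count_pos_iff.1 (by simp only [cnt] at he; omega)
      obtain ⟨L1, rfl, h1⟩ := head e hmem L' hp hd
      rw [cnt, hp.count_eq, List.count_cons_self] at he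
      have : (n, e) ∈ L1 := List.count_pos_iff.1 (by omega)
      have := h1 _ this
      simp at this
    have c11 : (n, true) ∈ L → (n, false) ∈ L → ¬ ∃ L', L.Perm L' ∧ Dn s t L' := by
      rintro ht hf ⟨L', hp, hd⟩
      obtain ⟨L1, rfl, h1⟩ := head true ht L' hp hd
      have hf' := hp.mem_iff.1 hf
      rcases List.mem_cons.1 hf' with h | h
      · simp at h
      · have := h1 _ h; simp at this
    -- the case of one label of colour `n`
    have c1 : ∀ e, cnt L (n, e) = 1 → cnt L (n, !e) = 0 →
        (TM (cnt L (n, true)) (cnt L (n, false)) = Matrix.of fun u v =>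
          if u = e ∧ v = !e then (1 : ZMod 2) else 0) →
        (PM (n + 1) (cnt L) s t = 1 ∧ ∃ L', L.Perm L' ∧ Dn s t L') ∨
          (PM (n + 1) (cnt L) s t = 0 ∧ ¬ ∃ L', L.Perm L' ∧ Dn s t L') := by
      intro e h1 h0 hT
      have hmem : (n, e) ∈ L := List.count_pos_iff.1 (by simp only [cnt] at h1; omega)
      have hp0 : L.Perm ((n, e) :: L.erase (n, e)) := List.perm_cons_erase hmem
      set L1 := L.erase (n, e) with hL1
      have hcol : ∀ a ∈ L1, a.1 < n := by
        intro a ha
        have ha' : a ∈ L := List.mem_of_mem_erase ha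
        have := hL a ha'
        by_contra hn
        have hn : a.1 = n := by omega
        obtain ⟨i, f⟩ := a
        simp only at hn; subst hn
        have hf : f = e ∨ f = !e := by cases f <;> cases e <;> simp
        rcases hf with rfl | rfl
        · rw [cnt, hp0.count_eq, List.count_cons_self] at h1
          have : 0 < L1.count (i, f) := List.count_pos_iff.2 ha
          omega
        · have : 0 < L.count (i, !e) := List.count_pos_iff.2 ha'
          rw [cnt] at h0; omega
      have hPM : PM n (cnt L) = PM n (cnt L1) := by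
        apply PM_congr
        intro i hi u
        rw [cnt_perm hp0, cnt_cons, Pi.add_apply, one]
        have : ((i, u) : Lab) ≠ (n, e) := by
          intro h; rw [Prod.mk.injEq] at h; omega
        simp [this]
      have hval : PM (n + 1) (cnt L) s t = if t = !e then PM n (cnt L1) s e else 0 := by
        rw [PM, hT, hPM, Matrix.mul_apply, Fintype.sum_bool]
        simp only [Matrix.of_apply]
        cases e <;> cases t <;> simp
      by_cases hte : t = !e
      · rw [hval, if_pos hte]
        rcases ih s e L1 hcol with ⟨h2, L', hp, hd⟩ | ⟨h2, h3⟩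
        · left
          refine ⟨h2, (n, e) :: L', hp0.trans (hp.cons _), hte, hd, ?_⟩
          intro b hb
          exact hcol b (hp.mem_iff.2 hb)
        · right
          refine ⟨h2, ?_⟩
          rintro ⟨L', hp, hd⟩
          obtain ⟨L2, rfl, -⟩ := head e hmem L' hp hd
          exact h3 ⟨L2, (hp0.symm.trans hp).cons_inv, hd.2.1⟩
      · right
        rw [hval, if_neg hte]
        refine ⟨rfl, ?_⟩
        rintro ⟨L', hp, hd⟩
        obtain ⟨L2, rfl, -⟩ := head e hmem L' hp hd
        exact hte hd.1
    rcases h : cnt L (n, true) with _ | _ | a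
    · rcases h' : cnt L (n, false) with _ | _ | b
      · -- (0,0)
        have hcol : ∀ a ∈ L, a.1 < n := by
          intro a ha
          have := hL a ha
          by_contra hn
          have hn : a.1 = n := by omega
          obtain ⟨i, f⟩ := a
          simp only at hn; subst hn
          have : 0 < L.count (i, f) := List.count_pos_iff.2 ha
          cases f
          · rw [cnt] at h'; omega
          · rw [cnt] at h; omega
        have : PM (n + 1) (cnt L) = PM n (cnt L) := by
          rw [PM, h, h']; simp [TM]
        rw [this]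
        exact ih s t L hcol
      · exact c1 false h' h (by rw [h, h']; rfl)
      · right
        refine ⟨?_, c2 false (by omega)⟩
        rw [PM, h', TM_two_right]; simp
    · rcases h' : cnt L (n, false) with _ | _ | b
      · exact c1 true h h' (by rw [h, h']; rfl)
      · right
        refine ⟨?_, c11 ?_ ?_⟩
        · rw [PM, h, h', TM_one_one]; simp
        · exact List.count_pos_iff.1 (by rw [cnt] at h; omega)
        · exact List.count_pos_iff.1 (by rw [cnt] at h'; omega)
      · right
        refine ⟨?_, c2 false (by omega)⟩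
        rw [PM, h', TM_two_right]; simp
    · right
      refine ⟨?_, c2 true (by omega)⟩
      rw [PM, h, TM_two_left]; simp

lemma up_append (s : Bool) (l : List Lab) (a : Lab) (t : Bool) (hd : Dn s t l.reverse)
    (ha : a.2 = t) (hlt : ∀ b ∈ l, b.1 < a.1) (hu : Up s l) : Up s (l ++ [a]) := by
  induction l generalizing s t with
  | nil =>
    refine ⟨?_, trivial, by simp⟩
    rw [ha]; exact hd.symm
  | cons b l ih =>
    obtain ⟨h1, h2, h3⟩ := hu
    rw [List.cons_append]
    refine ⟨h1, ?_, ?_⟩
    · -- Dn s t (l.reverse ++ [b]) → Dn (!s) t l.reverse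
      have key : ∀ (m : List Lab) (t : Bool), Dn s t (m ++ [b]) → Dn (!s) t m := by
        intro m
        induction m with
        | nil =>
          intro t h
          obtain ⟨h4, h5, -⟩ := h
          have h5 : s = b.2 := h5
          show (!s) = t
          rw [h4, h5]
        | cons c m ihm =>
          intro t h
          obtain ⟨h4, h5, h6⟩ := h
          exact ⟨h4, ihm _ h5, fun d hd => h6 d (by simp [hd])⟩
      rw [List.reverse_cons] at hd
      exact ih (!s) t (key _ _ hd) ha (fun c hc => hlt c (by simp [hc])) h2
    · intro c hc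
      rw [List.mem_append, List.mem_singleton] at hc
      rcases hc with hc | rfl
      · exact h3 c hc
      · exact hlt b (by simp)

lemma up_of_dn (s t : Bool) (L : List Lab) (h : Dn s t L) : Up s L.reverse := by
  induction L generalizing t with
  | nil => trivial
  | cons a l ih =>
    obtain ⟨h1, h2, h3⟩ := h
    rw [List.reverse_cons]
    refine up_append s l.reverse a a.2 (by simpa using h2) rfl ?_ (ih _ h2)
    intro b hb
    exact h3 b (by simpa using hb)

lemma dn_of_up (s : Bool) (L : List Lab) (h : Up s L) : ∃ t, Dn s t L.reverse := by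
  induction L generalizing s with
  | nil => exact ⟨s, rfl⟩
  | cons a l ih =>
    obtain ⟨h1, h2, h3⟩ := h
    obtain ⟨t, ht⟩ := ih _ h2
    refine ⟨t, ?_⟩
    rw [List.reverse_cons]
    have key : ∀ (m : List Lab) (t : Bool), (∀ b ∈ m, a.1 < b.1) → Dn (!s) t m →
        Dn s t (m ++ [a]) := by
      intro m
      induction m with
      | nil =>
        intro t _ h
        have h : (!s) = t := h
        exact ⟨by rw [h1, h], h1.symm, by simp⟩
      | cons c m ihm =>
        intro t hm h
        obtain ⟨h4, h5, h6⟩ := h
        refine ⟨h4, ihm _ (fun b hb => hm b (by simp [hb])) h5, ?_⟩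
        intro b hb
        have hb : b ∈ m ++ [a] := hb
        rw [List.mem_append, List.mem_singleton] at hb
        rcases hb with hb | rfl
        · exact h6 b hb
        · exact hm c (by simp)
    exact key _ _ (fun b hb => h3 b (by simpa using hb)) ht

/-- the final state of a `Dn` list is determined. -/
lemma dn_det (s : Bool) : ∀ (L L' : List Lab) (t t' : Bool), Dn s t L → Dn s t' L' →
    L.Perm L' → t = t' := by
  intro L L' t t' h h' hp
  cases L with
  | nil =>
    have := hp.symm.eq_nil
    subst this
    exact (show s = t from h).symm.trans h'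
  | cons a l =>
    cases L' with
    | nil => exact absurd hp.eq_nil (by simp)
    | cons b m =>
      obtain ⟨h1, -, h3⟩ := h
      obtain ⟨h1', -, h3'⟩ := h'
      have hab : a = b := by
        have ha := hp.mem_iff.1 (show a ∈ a :: l by simp)
        have hb := hp.mem_iff.2 (show b ∈ b :: m by simp)
        rcases List.mem_cons.1 ha with e | e
        · exact e
        · rcases List.mem_cons.1 hb with e' | e'
          · exact e'.symm
          · have := h3 _ e'; have := h3' _ e; omega
      rw [h1, h1', hab]

/-- **meaning of `al`**. -/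
theorem al_spec (n : ℕ) (s : Bool) (L : List Lab) (hL : ∀ a ∈ L, a.1 < n) :
    (al n s L = 1 ∧ ∃ L', L.Perm L' ∧ Up s L') ∨ (al n s L = 0 ∧ ¬ ∃ L', L.Perm L' ∧ Up s L') := by
  have key : (∃ L', L.Perm L' ∧ Up s L') ↔ (∃ t L', L.Perm L' ∧ Dn s t L') := by
    constructor
    · rintro ⟨L', hp, hu⟩
      obtain ⟨t, ht⟩ := dn_of_up s L' hu
      exact ⟨t, L'.reverse, hp.trans (List.reverse_perm L').symm, ht⟩
    · rintro ⟨t, L', hp, hd⟩
      exact ⟨L'.reverse, hp.trans (List.reverse_perm L').symm, up_of_dn s t L' hd⟩
  rw [key]
  have e : al n s L = PM n (cnt L) s true + PM n (cnt L) s false := by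
    simp [al]
  rcases PM_spec n s true L hL with ⟨h1, L1, p1, d1⟩ | ⟨h1, n1⟩
  · rcases PM_spec n s false L hL with ⟨h2, L2, p2, d2⟩ | ⟨h2, n2⟩
    · have := dn_det s L1 L2 true false d1 d2 (p1.symm.trans p2)
      simp at this
    · left
      refine ⟨by rw [e, h1, h2]; rfl, true, L1, p1, d1⟩
  · rcases PM_spec n s false L hL with ⟨h2, L2, p2, d2⟩ | ⟨h2, n2⟩
    · left
      refine ⟨by rw [e, h1, h2]; rfl, false, L2, p2, d2⟩
    · right
      refine ⟨by rw [e, h1, h2]; rfl, ?_⟩
      rintro ⟨t, L', p, d⟩
      cases t
      · exact n2 ⟨L', p, d⟩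
      · exact n1 ⟨L', p, d⟩

/-- the alternating sign. -/
def sg (s : Bool) (i : ℕ) : Bool := if i % 2 = 0 then s else !s

lemma sg_succ (s : Bool) (i : ℕ) : sg s (i + 1) = sg (!s) i := by
  simp only [sg]
  rcases Nat.mod_two_eq_zero_or_one i with h | h
  · have : (i + 1) % 2 = 1 := by omega
    simp [h, this]
  · have : (i + 1) % 2 = 0 := by omega
    simp [h, this]

/-- an increasing alternating list of length `n` with colours in `[k, k + n)` contains
`(k + i, sg s i)` for every `i < n`. -/
lemma up_full (n k : ℕ) (s : Bool) (L : List Lab) (h : Up s L) (hlen : L.length = n)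
    (hlow : ∀ a ∈ L, k ≤ a.1) (hhigh : ∀ a ∈ L, a.1 < k + n) :
    ∀ i < n, (k + i, sg s i) ∈ L := by
  induction L generalizing n k s with
  | nil => intro i hi; simp at hlen; omega
  | cons a l ih =>
    obtain ⟨h1, h2, h3⟩ := h
    rw [List.length_cons] at hlen
    -- the head has colour k
    have hk : a.1 = k := by
      by_contra hne
      have hgt : k < a.1 := lt_of_le_of_ne (hlow a (by simp)) (Ne.symm hne)
      -- l has n-1 distinct colours in (a.1, k+n)
      have hnodup : (l.map Prod.fst).Nodup := by
        have : ∀ (s : Bool) (l : List Lab), Up s l → (l.map Prod.fst).Nodup := by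
          intro s l
          induction l generalizing s with
          | nil => intro _; simp
          | cons b l ihl =>
            rintro ⟨_, h5, h6⟩
            rw [List.map_cons, List.nodup_cons]
            refine ⟨?_, ihl _ h5⟩
            intro hb
            rw [List.mem_map] at hb
            obtain ⟨c, hc, e⟩ := hb
            have := h6 c hc; omega
        exact this _ _ h2
      have hsub : (l.map Prod.fst).toFinset ⊆ Finset.Ioo (k + 1) (k + n) := by
        intro i hi
        rw [List.mem_toFinset, List.mem_map] at hi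
        obtain ⟨b, hb, rfl⟩ := hi
        rw [Finset.mem_Ioo]
        have := h3 b hb
        have := hhigh b (by simp [hb])
        omega
      have hc := Finset.card_le_card hsub
      rw [List.toFinset_card_of_nodup hnodup, List.length_map, Nat.card_Ioo] at hc
      have hn : 0 < n := by omega
      have := hhigh a (by simp)
      omega
    intro i hi
    rcases i with _ | i
    · have : ((k + 0, sg s 0) : Lab) = a := by
        rw [Prod.ext_iff]; exact ⟨by simp [hk], by simp [sg, h1]⟩
      rw [this]; simp
    · rw [sg_succ]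
      have := ih (n - 1) (k + 1) (!s) h2 (by omega) (fun b hb => by have := h3 b hb; omega)
        (fun b hb => by have := hhigh b (by simp [hb]); omega) i (by omega)
      rw [show k + 1 + i = k + (i + 1) by omega] at this
      exact List.mem_cons_of_mem _ this

/-- the increasing alternating list of all colours in `[k, k+n)`. -/
def full (s : Bool) : ℕ → ℕ → List Lab
  | _, 0 => []
  | k, (n + 1) => (k, s) :: full (!s) (k + 1) n

lemma mem_full (s : Bool) (k n : ℕ) (a : Lab) : a ∈ full s k n ↔ ∃ i < n, a = (k + i, sg s i) := by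
  induction n generalizing s k with
  | zero => simp [full]
  | succ n ih =>
    rw [full, List.mem_cons, ih]
    constructor
    · rintro (rfl | ⟨i, hi, rfl⟩)
      · exact ⟨0, by omega, by simp [sg]⟩
      · exact ⟨i + 1, by omega, by rw [sg_succ, show k + 1 + i = k + (i + 1) by omega]⟩
    · rintro ⟨i, hi, rfl⟩
      rcases i with _ | i
      · left; simp [sg]
      · right
        exact ⟨i, by omega, by rw [sg_succ, show k + 1 + i = k + (i + 1) by omega]⟩

lemma full_up (s : Bool) (k n : ℕ) : Up s (full s k n) := by
  induction n generalizing s k with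
  | zero => trivial
  | succ n ih =>
    refine ⟨rfl, ih _ _, ?_⟩
    intro b hb
    rw [mem_full] at hb
    obtain ⟨i, _, rfl⟩ := hb
    show k < k + 1 + i
    omega

lemma full_length (s : Bool) (k n : ℕ) : (full s k n).length = n := by
  induction n generalizing s k with
  | zero => rfl
  | succ n ih => rw [full, List.length_cons, ih]

lemma full_nodup (s : Bool) (k n : ℕ) : (full s k n).Nodup := by
  induction n generalizing s k with
  | zero => simp [full]
  | succ n ih =>
    rw [full, List.nodup_cons]
    refine ⟨?_, ih _ _⟩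
    rw [mem_full]
    rintro ⟨i, _, h⟩
    rw [Prod.mk.injEq] at h; omega

/-- for a list of `n` labels with colours `< n`, `al n s L = 1` iff `L` contains all
`(i, sg s i)`, `i < n`. -/
theorem al_full (n : ℕ) (s : Bool) (L : List Lab) (hL : ∀ a ∈ L, a.1 < n) (hlen : L.length = n) :
    al n s L = if ∀ i < n, (i, sg s i) ∈ L then 1 else 0 := by
  rcases al_spec n s L hL with ⟨h1, L', hp, hu⟩ | ⟨h1, h2⟩
  · rw [h1, if_pos]
    intro i hi
    have := up_full n 0 s L' hu (by rw [← hp.length_eq, hlen]) (by simp)
      (fun a ha => by rw [zero_add]; exact hL a (hp.mem_iff.2 ha)) i hi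
    rw [zero_add] at this
    exact hp.mem_iff.2 this
  · rw [h1, if_neg]
    intro h
    apply h2
    refine ⟨full s 0 n, ?_, full_up _ _ _⟩
    have hsub : full s 0 n ⊆ L := by
      intro a ha
      rw [mem_full] at ha
      obtain ⟨i, hi, rfl⟩ := ha
      rw [zero_add]; exact h i hi
    have hsp : (full s 0 n).Subperm L := (full_nodup s 0 n).subperm hsub
    exact (hsp.perm_of_length_le (by rw [hlen, full_length])).symm

section fan2

variable {V : Type*}

/-- **all sign patterns are odd**: for an odd labelling with `N` colours of the symmetric chain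
`z = h_{N-1} + τ h_{N-1}` without complementary pairs, and for every sign pattern `σ`, the number
of tuples of `z` with labels `(i, σ i)`, `i < N`, is odd. -/
theorem fan_pattern (τ : V → V) (ℓ : V → Lab) (hℓ : ∀ v, ℓ (τ v) = fl (ℓ v)) (N : ℕ)
    (hN : 0 < N) (hn : ∀ v, (ℓ v).1 < N) (h : ℕ → Ch V) (h0 : bd (h 0) = single [] 1)
    (hs : ∀ k, bd (h (k + 1)) = h k + mp τ (h k))
    (hc : ∀ k < N, ∀ l ∈ (h k).support, NC (l.map ℓ))
    (hlen : ∀ l ∈ (h (N - 1)).support, l.length = N) (σ : ℕ → Bool) :
    ev (fun l => if ∀ i < N, (i, σ i) ∈ l.map ℓ then (1 : ZMod 2) else 0)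
      (h (N - 1) + mp τ (h (N - 1))) = 1 := by
  -- flip the signs of some colours
  let ℓ' : V → Lab := fun v => ((ℓ v).1, xor (ℓ v).2 (xor (σ (ℓ v).1) (sg true (ℓ v).1)))
  have hfl : ∀ v, ℓ' (τ v) = fl (ℓ' v) := by
    intro v
    simp only [ℓ', hℓ, fl]
    rw [Bool.not_xor]
  have hmem : ∀ (l : List V) (i : ℕ) (e : Bool),
      (i, e) ∈ l.map ℓ' ↔ (i, xor e (xor (σ i) (sg true i))) ∈ l.map ℓ := by
    intro l i e
    rw [List.mem_map, List.mem_map]
    constructor
    · rintro ⟨v, hv, h⟩
      refine ⟨v, hv, ?_⟩
      simp only [ℓ', Prod.mk.injEq] at h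
      obtain ⟨h1, h2⟩ := h
      rw [Prod.ext_iff]
      refine ⟨h1, ?_⟩
      rw [← h2, ← h1]
      simp
    · rintro ⟨v, hv, h⟩
      refine ⟨v, hv, ?_⟩
      rw [Prod.ext_iff] at h
      obtain ⟨h1, h2⟩ := h
      simp only at h1 h2
      simp only [ℓ', Prod.mk.injEq]
      refine ⟨h1, ?_⟩
      rw [h2, h1]
      simp
  have hc' : ∀ k < N, ∀ l ∈ (h k).support, NC (l.map ℓ') := by
    intro k hk l hl i hi
    rw [hmem, hmem] at hi
    apply hc k hk l hl i
    generalize xor (σ i) (sg true i) = u at hi
    cases u
    · simpa using hi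
    · simpa [and_comm] using hi
  have key := fan τ ℓ' hfl N (fun v => hn v) h h0 hs N hc' true (N - 1) (by omega)
  refine Eq.trans ?_ key
  apply ev_congr
  intro l hl
  have hlen' : l.length = N := by
    have hS : h (N - 1) + mp τ (h (N - 1)) ∈ Sup (fun l : List V => l.length = N) := by
      apply Submodule.add_mem
      · rw [mem_Sup]; exact hlen
      · refine mp_mem _ ?_ (mem_Sup.2 hlen)
        intro l hl; simpa using hl
    exact mem_Sup.1 hS l hl
  rw [al_full N true (l.map ℓ') (by
    intro a ha
    rw [List.mem_map] at ha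
    obtain ⟨v, _, rfl⟩ := ha
    exact hn v) (by simpa using hlen')]
  have : (∀ i < N, (i, σ i) ∈ l.map ℓ) ↔ ∀ i < N, (i, sg true i) ∈ l.map ℓ' := by
    refine forall_congr' fun i => imp_congr_right fun _ => ?_
    rw [hmem]
    have : xor (sg true i) (xor (σ i) (sg true i)) = σ i := by
      cases sg true i <;> cases σ i <;> rfl
    rw [this]
  simp only [this]

end fan2

end P052.H680
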